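import Crest.Agent.X262.Ends.Red
import Crest.Agent.X262.Vb.Ax0
import Crest.Agent.X262.EndsZ.Main

/-!
# Row 262, road B, ENDS (helper3): components of good reduction

* `ry`, `sw_ry`  : the reduction of any point of the curve lies on the swept variety;
* `exists_gr`, `pt_gr` : the reduction of the forms and of their values;
* `good_of`      : `Ends.GoodStmt`.
-/

set_option autoImplicit false
set_option linter.unusedSectionVars false

noncomputable section

namespace Crest.Agent.X262.Good3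

open Crest.Agent.X277 Crest.Agent.X277.BD Polynomial
open Crest.Agent.X262.Hb Crest.Agent.X262.Vb Crest.Agent.X262.Ends
open Crest.Agent.X262.Bub96 (hv)
open Crest.Agent.X262.Node22 (chr scl pv_scl)

variable {J : Type} [Fintype J] [DecidableEq J] {io : J → Type} [∀ j, Fintype (io j)]
  [∀ j, DecidableEq (io j)] {A : Type} [Fintype A] {T : Tgt io A} {d ν : J → ℕ} {j₁ : J}
  {K L E I : Type} [Field K] [Algebra ℂ K] [Field L] [Algebra ℂ L] [Field E] [Algebra ℂ E]
  [Fintype I] {f : (j : J) → io j → K[X]} {N : ℕ}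

/-- the scalars which make a point of the curve primitive -/
def nr (V : RZ ℂ L) (η : Dat io d I L) (t : Option L) : J → L :=
  fun j => ((ln (η.pt t) j).gen V)⁻¹

/-- the reduction of a point of the curve -/
def ry (p : Pl ℂ L ℂ E) (η : Dat io d I L) (t : Option L) : Pnt io E :=
  redP p (scl (nr p.V η t) (η.pt t))

theorem prim_nr (V : RZ ℂ L) (η : Dat io d I L) (t : Option L) :
    Prim V (scl (nr V η t) (η.pt t)) :=
  prim_scl (Vb37.nz_pt η t) fun j => by rw [nr, map_inv₀, v_gen]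

theorem sw_ry (hL : Line T d ν j₁ f) (hk : ∀ a j, T.k a j ≤ N) {η : Dat io d I L}
    (hN : η.NrmUp N) (p : LP L E) (hO : (η.cfg.red p.toPl).On T) (t : Option L) :
    Sw f (ry p.toPl η t) := by
  let η' : Dat io d (Option I) L := ⟨η.f, fun q => q.elim t η.x, η.cp⟩
  have h1 : (η'.res some).NrmUp N := hN
  have h2 := (Dat.nrUp_cfg h1).red η'.cfg_nz p
  have h3 : (η'.cfg.red p.toPl).On T :=
    (Cfg.on_res (fun a => h2 _ (hk a)) ((η'.cfg_mul.red η'.cfg_nz p.toPl).sv_mem T)).1 fun q => hO q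
  have h4 := treePts_red hk (Dat.nrmUp_of_res h1) p.toPl h3 fun _ : Unit => none
  exact ⟨EndsZ.tree_nz h4 (), fun q κ hq h0 => hL.sw q κ hq h0 E _ h4⟩

theorem exists_gr (p : Pl ℂ L ℂ E) (η : Dat io d I L) : ∃ s g, GR p η.f s g := by
  have h1 : ∀ j, ∃ s : L, (∀ i l, s * (η.f j i).coeff l ∈ p.V.1) ∧
      ∃ i l, s * (η.f j i).coeff l = 1 := fun j => by
    let y : io j × Fin (d j + 1) → L := fun x => (η.f j x.1).coeff x.2
    obtain ⟨i₀, h0⟩ := η.cp.2.1 j
    obtain ⟨x, hx⟩ := exists_val_mxf (k := ℂ) (s := y) ⟨(i₀, Fin.last _), h0⟩ p.V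
    have hx0 : y x ≠ 0 := RZ.ne_zero_iff.1 (hx ▸ val_ne _ _)
    refine ⟨(y x)⁻¹, fun i l => ?_, x.1, x.2, inv_mul_cancel₀ hx0⟩
    by_cases hl : l < d j + 1
    · rw [← RZ.le_one_iff, map_mul, map_inv₀, inv_mul_le_iff₀ (RZ.pos hx0), mul_one, hx]
      exact mem_Sec_mxf y (i, ⟨l, hl⟩) p.V
    · rw [natDegree_le_iff_coeff_eq_zero.1 (η.cp.1 j i) l (by omega), mul_zero]
      exact zero_mem _
  choose s hs hs1 using h1
  have h2 : ∀ j i, ∃ σ', PR p (C (s j) * η.f j i) σ' := fun j i =>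
    exists_pr fun l => by rw [coeff_C_mul]; exact hs j i l
  choose g hg using h2
  refine ⟨s, g, hs, fun j i l => by rw [← (hg j i l).2, coeff_C_mul], fun j => ?_⟩
  obtain ⟨i, l, h⟩ := hs1 j
  exact ⟨i, l, by rw [← (hg j i l).2, coeff_C_mul, h, Pl.r_one]⟩

variable {p : Pl ℂ L ℂ E} {η : Dat io d I L} {s : J → L} {g : (j : J) → io j → E[X]}

theorem pr_gr (h : GR p η.f s g) (j : J) (i : io j) : PR p (C (s j) * η.f j i) (g j i) :=
  fun l => by rw [coeff_C_mul]; exact ⟨h.mem j i l, h.red j i l⟩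

theorem deg_gr (h : GR p η.f s g) (j : J) (i : io j) : (g j i).natDegree ≤ d j :=
  (pr_gr h j i).deg ((natDegree_C_mul_le _ _).trans (η.cp.1 j i))

theorem pt_gr (h : GR p η.f s g) (t : Option L) :
    ∃ c : J → E, pt d g (rx p t) = scl c (ry p η t) := by
  refine ⟨fun j => p.r (nx p.V t ^ d j * s j / nr p.V η t j), _root_.funext fun j =>
    _root_.funext fun i => ?_⟩
  have h0 : nr p.V η t j ≠ 0 := inv_ne_zero (gen_ne _ _)
  have h1 := fun i => (pr_gr h j i).hv ((natDegree_C_mul_le _ _).trans (η.cp.1 j i)) t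
  have h2 : ∀ i, nx p.V t ^ d j * hv (d j) (C (s j) * η.f j i) t =
      nx p.V t ^ d j * s j / nr p.V η t j * scl (nr p.V η t) (η.pt t) j i := fun i => by
    rw [Bub96.hv_C_mul, scl, Dat.pt]
    field_simp
  obtain ⟨i₀, h3⟩ := (prim_nr p.V η t j).2
  have h4 : nx p.V t ^ d j * s j / nr p.V η t j ∈ p.V.1 := by
    have := RZ.le_one_iff.2 (h1 i₀).1
    rwa [h2, map_mul, h3, mul_one, RZ.le_one_iff] at this
  rw [pt, ← (h1 i).2, h2, Pl.r_mul h4 ((prim_nr p.V η t j).1 i)]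
  rfl

theorem swP_gr (h : GR p η.f s g) (hS : ∀ t, Sw f (ry p η t)) : SwP f g := fun q κ hq h0 => by
  have : CharZero E := charZero_of_injective_algebraMap (algebraMap ℂ E).injective
  refine eq_zero_of_infinite_isRoot _ ((Set.infinite_range_of_injective
    (Nat.cast_injective (R := E))).mono ?_)
  rintro _ ⟨n, rfl⟩
  obtain ⟨c, hc⟩ := pt_gr h (some (n : L))
  have h1 := (hv_pf hq (deg_gr h)).2 (some (n : E))
  rw [rx_nat] at hc
  rwa [hc, pv_scl hq, (hS _).2 q κ hq h0, mul_zero] at h1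

/-- on a factor of degree zero the reduced point does not depend on the point of the curve -/
theorem base_gr (h : GR p η.f s g) (t : Option L) {j : J} (hj : d j = 0) :
    ∃ c : E, c ≠ 0 ∧ ∀ i, (g j i).coeff 0 = c * ry p η t j i := by
  obtain ⟨c, hc⟩ := pt_gr h t
  have h1 : ∀ i, (g j i).coeff 0 = c j * ry p η t j i := fun i => by
    have h2 := congrFun (congrFun hc j) i
    rw [pt, eq_C_of_natDegree_le_zero ((deg_gr h j i).trans hj.le), hj] at h2
    rcases ht : rx p t with _ | u <;> simpa [ht, hv, scl] using h2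
  refine ⟨c j, fun h0 => ?_, h1⟩
  obtain ⟨i, l, hl⟩ := h.one j
  rcases l with _ | l
  · rw [h1, h0, zero_mul] at hl
    exact zero_ne_one hl
  · rw [natDegree_le_iff_coeff_eq_zero.1 (deg_gr h j i) _ (by omega)] at hl
    exact zero_ne_one hl

theorem c1_scl {B : Th} (hB : B.Ax) {ι : Type} [Fintype ι] {u v : ι → E} {c : E}
    (hu : ∃ i, u i ≠ 0) (h : ∀ i, u i = c * v i) : B.c1 (mxf ℂ u) = B.c1 (mxf ℂ v) := by
  obtain ⟨i₀, h0⟩ := hu
  rw [h, mul_ne_zero_iff] at h0
  have h1 : mxf ℂ v + pr ℂ c = mxf ℂ u := by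
    refine eq_mxf (fun i V => ?_) fun V => ?_
    · rw [val_add, val_pr h0.1, h, map_mul, mul_comm]
      exact mul_le_mul_left (mem_Sec_mxf v i V) _
    · obtain ⟨i, hi⟩ := exists_val_mxf (k := ℂ) (s := v) ⟨i₀, h0.2⟩ V
      exact ⟨i, by rw [val_add, val_pr h0.1, h, map_mul, mul_comm, hi]⟩
  rw [← h1, map_add, hB.c1_pr, add_zero]

/-- **GOOD** -/
theorem good_of (hV : VanStmt) (hQ : SqStmt) (hM : MobStmt) : GoodStmt := by
  intro B hB J _ _ io _ _ A _ T d ν j₁ K _ _ _ f hL N hk I M L E _ _ _ _ _ _ η m q₀ a b c hN _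
    ha hb hx p hO hlin
  classical
  obtain ⟨s, g, h⟩ := exists_gr p.toPl η
  have hS := sw_ry hL hk hN p hO
  let y : M → Pnt io E := fun q => ry p.toPl η (η.x (m q))
  change (∏ q, hc B j₁ E (y q)) * ∏ j, hc B j E (y q₀) ^ ν j ≠ 0 at hlin
  have hg0 : ∀ j, ∃ i, g j i ≠ 0 := fun j => by
    obtain ⟨i, l, hl⟩ := h.one j
    exact ⟨i, fun h0 => by simp [h0] at hl⟩
  refine ⟨s, g, h, hM T d ν j₁ f hL E g (deg_gr h) hg0 (swP_gr h hS) ?_ ?_⟩
  · have h1 : bas ν (fun j i => (g j i).coeff 0) = bas ν (y q₀) := by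
      unfold bas
      congr 1
      ext t
      refine exists_congr fun j => exists₂_congr fun i i' => and_congr_right fun hj => ?_
      obtain ⟨u, hu, h2⟩ := base_gr h (η.x (m q₀)) (hL.zero j hj)
      simp only [h2, mul_div_mul_left _ _ hu, y]
    rw [h1]
    exact not_lt.1 fun h2 => hlin (by rw [hV B hB ν E _ (hS _).1 h2, mul_zero])
  by_contra hmin
  push Not at hmin
  have hbase : ∀ q, ∏ j, hc B j E (y q₀) ^ ν j = ∏ j, hc B j E (y q) ^ ν j := fun q =>
    Finset.prod_congr rfl fun j _ => by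
      by_cases hj : ν j = 0
      · rw [hj, pow_zero, pow_zero]
      obtain ⟨u, hu, h2⟩ := base_gr h (η.x (m q₀)) (hL.zero j hj)
      obtain ⟨u', -, h3⟩ := base_gr h (η.x (m q)) (hL.zero j hj)
      have h4 : ∃ i, (g j i).coeff 0 ≠ 0 :=
        ((hS (η.x (m q₀))).1 j).imp fun i hi => h2 i ▸ mul_ne_zero hu hi
      exact congrArg (· ^ ν j) ((c1_scl hB h4 h2).symm.trans (c1_scl hB h4 h3))
  have key : ∀ q q', q ≠ q' → hc B j₁ E (y q) ≠ hc B j₁ E (y q') := fun q q' hq h1 => hlin (by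
    rw [← Finset.mul_prod_erase _ _ (Finset.mem_univ q), ← Finset.mul_prod_erase _ _
      (Finset.mem_erase.2 ⟨hq.symm, Finset.mem_univ q'⟩), ← h1, hbase q, ← mul_assoc, ← sq,
      mul_right_comm, hQ B hB T d ν j₁ f hL E _ (hS _), zero_mul])
  have hd := fun i => hL.one ▸ deg_gr h j₁ i
  obtain ⟨ca, h1⟩ := pt_gr h (η.x (m a))
  obtain ⟨cb, h2⟩ := pt_gr h (η.x (m b))
  obtain ⟨cc, h3⟩ := pt_gr h (η.x (m c))
  have e1 : ∀ i, (g j₁ i).coeff 1 = ca j₁ * y a j₁ i := fun i => by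
    have := congrFun (congrFun h1 j₁) i
    rwa [pt, hL.one, show rx p.toPl (η.x (m a)) = none by rw [ha]; rfl] at this
  have e2 : ∀ i, (g j₁ i).coeff 0 = cb j₁ * y b j₁ i := fun i => by
    have := congrFun (congrFun h2 j₁) i
    rwa [pt, show rx p.toPl (η.x (m b)) = some 0 by simpa [hb] using rx_nat p.toPl 0,
      Bub96.hv_some, ← coeff_zero_eq_eval_zero] at this
  have e3 : ∀ i, (g j₁ i).coeff 0 + (g j₁ i).coeff 1 = cc j₁ * y c j₁ i := fun i => by
    have := congrFun (congrFun h3 j₁) i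
    rwa [pt, show rx p.toPl (η.x (m c)) = some 1 by simpa [hx] using rx_nat p.toPl 1,
      Bub96.hv_some, eval_eq_sum_range' (n := 2) (Nat.lt_succ_of_le (hd i)), Finset.sum_range_succ,
      Finset.sum_range_one, pow_zero, pow_one, mul_one, mul_one] at this
  have hab : a ≠ b := fun e => by rw [e, hb] at ha; cases ha
  have hac : a ≠ c := fun e => by rw [e, hx] at ha; cases ha
  have hbc : b ≠ c := fun e => by rw [e, hx] at hb; simp at hb
  by_cases hA : ∃ i, (g j₁ i).coeff 0 ≠ 0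
  · by_cases hB' : ∃ i, (g j₁ i).coeff 1 ≠ 0
    · obtain ⟨i₀, h0⟩ := id hA
      refine key a b hab ((c1_scl hB hB' e1).symm.trans (c1_scl hB hB'
        (c := (g j₁ i₀).coeff 1 / (g j₁ i₀).coeff 0 * cb j₁) fun i => ?_))
      rw [mul_assoc, ← e2, div_mul_eq_mul_div, eq_div_iff h0, mul_comm, hmin i₀ i, mul_comm]
    · push Not at hB'
      exact key b c hbc ((c1_scl hB hA e2).symm.trans (c1_scl hB hA fun i => by
        rw [← e3, hB', add_zero]))
  · push Not at hA
    have hB' : ∃ i, (g j₁ i).coeff 1 ≠ 0 := (hg0 j₁).imp fun i hi h0 => hi (by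
      rw [eq_X_add_C_of_natDegree_le_one (hd i), h0, hA]; simp)
    exact key a c hac ((c1_scl hB hB' e1).symm.trans (c1_scl hB hB' fun i => by
      rw [← e3, hA, zero_add]))

end Crest.Agent.X262.Good3
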